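import Vale.Agent.P166F.Defs

/-!
P166: integrals against laws carried by the unit interval.
-/

namespace Vale.Agent.P166F.Loop

open MeasureTheory Set Filter
open scoped Topology

variable {ν : Measure ℝ} [IsProbabilityMeasure ν]

lemma integrable_cont (hν : ∀ᵐ u ∂ν, u ∈ Icc (0 : ℝ) 1) {g : ℝ → ℝ} (hg : Continuous g) :
    Integrable g ν := by
  rw [← Measure.restrict_eq_self_of_ae_mem hν]
  exact hg.continuousOn.integrableOn_compact isCompact_Icc

lemma integrable_cont_two {P : Measure (ℝ × ℝ)} [IsFiniteMeasure P]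
    (hP : ∀ᵐ z ∂P, z ∈ Icc (0 : ℝ) 1 ×ˢ Icc (0 : ℝ) 1) {g : ℝ × ℝ → ℝ} (hg : Continuous g) :
    Integrable g P := by
  rw [← Measure.restrict_eq_self_of_ae_mem hP]
  exact hg.continuousOn.integrableOn_compact (isCompact_Icc.prod isCompact_Icc)

lemma ae_prod_unit (hν : ∀ᵐ u ∂ν, u ∈ Icc (0 : ℝ) 1) :
    ∀ᵐ z ∂ν.prod ν, z ∈ Icc (0 : ℝ) 1 ×ˢ Icc (0 : ℝ) 1 := by
  filter_upwards [Measure.quasiMeasurePreserving_fst.ae hν,
    Measure.quasiMeasurePreserving_snd.ae hν] with z h1 h2
  exact ⟨h1, h2⟩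

lemma continuous_integral_cont (hν : ∀ᵐ u ∂ν, u ∈ Icc (0 : ℝ) 1) {h : ℝ → ℝ → ℝ}
    (hh : Continuous (Function.uncurry h)) : Continuous fun w => ∫ u, h w u ∂ν := by
  have := continuous_parametric_integral_of_continuous (μ := ν) hh
    (isCompact_Icc (a := (0 : ℝ)) (b := 1))
  simpa [Measure.restrict_eq_self_of_ae_mem hν] using this

/-- A closed set of full measure contains the support. -/
lemma support_subset_of_ae {X : Type*} [TopologicalSpace X] [MeasurableSpace X] {μ : Measure X}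
    {C : Set X} (hC : IsClosed C) (h : ∀ᵐ x ∂μ, x ∈ C) : μ.support ⊆ C := fun x hx => by
  by_contra hxC
  have := (Measure.mem_support_iff_forall x).1 hx _ (hC.isOpen_compl.mem_nhds hxC)
  rw [ae_iff] at h
  exact absurd h this.ne'

/-- A closed null-complemented condition holds on the support. -/
lemma eqOn_support {g g' : ℝ → ℝ} (hg : Continuous g) (hg' : Continuous g')
    (h : g =ᵐ[ν] g') {w : ℝ} (hw : w ∈ ν.support) : g w = g' w :=
  support_subset_of_ae (isClosed_eq hg hg') h hw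

lemma integral_const_one (c : ℝ) : ∫ _u, c ∂ν = c := by simp

lemma tail_eq (hν : ∀ᵐ u ∂ν, u ∈ Icc (0 : ℝ) 1) (q : ℝ) :
    tail ν q = 1 - ∫ u, max q u ∂ν := by
  rw [tail, integral_sub (integrable_const 1) (integrable_cont hν (by fun_prop)), integral_const_one]

lemma tail_mem (hν : ∀ᵐ u ∂ν, u ∈ Icc (0 : ℝ) 1) {q : ℝ} (hq : q ∈ Icc (0 : ℝ) 1) :
    tail ν q ∈ Icc (0 : ℝ) 1 := by
  have hb : ∀ᵐ u ∂ν, 0 ≤ 1 - max q u ∧ 1 - max q u ≤ 1 := by
    filter_upwards [hν] with u hu
    exact ⟨sub_nonneg.2 (max_le hq.2 hu.2), by linarith [le_max_left q u, hq.1]⟩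
  refine ⟨integral_nonneg_of_ae (hb.mono fun u hu => hu.1), ?_⟩
  calc tail ν q ≤ ∫ _u, (1 : ℝ) ∂ν := integral_mono_ae (integrable_cont hν (by fun_prop))
        (integrable_const 1) (hb.mono fun u hu => hu.2)
    _ = 1 := integral_const_one 1

lemma tail_one (hν : ∀ᵐ u ∂ν, u ∈ Icc (0 : ℝ) 1) : tail ν 1 = 0 :=
  integral_eq_zero_of_ae (hν.mono fun u hu => by simp [max_eq_left hu.2])

lemma tail_sub (hν : ∀ᵐ u ∂ν, u ∈ Icc (0 : ℝ) 1) (a b : ℝ) :
    tail ν a - tail ν b = ∫ u, (max b u - max a u) ∂ν := by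
  rw [tail_eq hν, tail_eq hν, integral_sub (integrable_cont hν (by fun_prop))
    (integrable_cont hν (by fun_prop))]
  ring

lemma tail_lip (hν : ∀ᵐ u ∂ν, u ∈ Icc (0 : ℝ) 1) {a b : ℝ} (hab : a ≤ b) :
    0 ≤ tail ν a - tail ν b ∧ tail ν a - tail ν b ≤ b - a := by
  rw [tail_sub hν]
  refine ⟨integral_nonneg fun u => sub_nonneg.2 (max_le_max hab le_rfl), ?_⟩
  calc ∫ u, (max b u - max a u) ∂ν ≤ ∫ _u, (b - a) ∂ν :=
        integral_mono (integrable_cont hν (by fun_prop)) (integrable_const _) fun u => by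
          rcases le_total u a with h | h
          · simp [max_eq_left h, max_eq_left (h.trans hab)]
          · rcases le_total u b with h' | h'
            · simp [max_eq_right h, max_eq_left h']; linarith
            · simp [max_eq_right h, max_eq_right h']; linarith
    _ = b - a := integral_const_one _

lemma continuous_tail (hν : ∀ᵐ u ∂ν, u ∈ Icc (0 : ℝ) 1) : Continuous (tail ν) :=
  continuous_integral_cont (h := fun q u => 1 - max q u) hν (by fun_prop)

/-- A function whose increments are of second order is constant. -/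
lemma eq_of_quadratic {ψ : ℝ → ℝ} {C : ℝ}
    (h : ∀ a b, 0 ≤ a → a ≤ b → b ≤ 1 → |ψ b - ψ a| ≤ C * (b - a) ^ 2) {w : ℝ}
    (hw : w ∈ Icc (0 : ℝ) 1) : ψ w = ψ 1 := by
  have hb : ∀ n : ℕ, |ψ 1 - ψ w| ≤ C * (1 - w) ^ 2 * (1 / ((n : ℝ) + 1)) := by
    intro n
    set t : ℕ → ℝ := fun i => w + (1 - w) * (i / ((n : ℝ) + 1)) with ht
    have hn : (0 : ℝ) < (n : ℝ) + 1 := by positivity
    have hstep : ∀ i, t (i + 1) - t i = (1 - w) / ((n : ℝ) + 1) := fun i => by
      simp only [ht]; push_cast; field_simp; ring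
    have hs : ∀ i, i ≤ n + 1 → |ψ (t i) - ψ (t 0)| ≤ i * (C * ((1 - w) / ((n : ℝ) + 1)) ^ 2) := by
      intro i
      induction i with
      | zero => simp
      | succ i ih =>
        intro hi
        have hi' : ((i : ℝ) + 1) / ((n : ℝ) + 1) ≤ 1 := by
          rw [div_le_one hn]; exact_mod_cast hi
        have h0 : (0 : ℝ) ≤ i / ((n : ℝ) + 1) := by positivity
        have h1 := h (t i) (t (i + 1))
          (by simp only [ht]; nlinarith [hw.1, hw.2])
          (by linarith [hstep i, div_nonneg (sub_nonneg.2 hw.2) hn.le])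
          (by simp only [ht]; push_cast; nlinarith [hw.2])
        rw [hstep i] at h1
        push_cast
        have h2 := abs_sub_le (ψ (t (i + 1))) (ψ (t i)) (ψ (t 0))
        linarith [ih (by omega)]
    have h1 := hs (n + 1) le_rfl
    have e0 : t 0 = w := by simp [ht]
    have e1 : t (n + 1) = 1 := by simp only [ht]; push_cast; field_simp; ring
    rw [e0, e1] at h1
    refine h1.trans_eq ?_
    push_cast
    field_simp
  have : |ψ 1 - ψ w| ≤ 0 := ge_of_tendsto'
    (by simpa using (tendsto_one_div_add_atTop_nhds_zero_nat (𝕜 := ℝ)).const_mul (C * (1 - w) ^ 2))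
    hb
  linarith [(abs_nonpos_iff.1 this)]

end Vale.Agent.P166F.Loop
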