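import Vale.Agent.P166F.Energy
import Vale.Agent.P166F.Loop.Unit

/-!
P166: linearised share relations and the block overlap of an overlap law.
-/

namespace Vale.Agent.P166F

open MeasureTheory Set Filter
open scoped Topology

variable {K : ℕ} {a : Atoms K} {s : ℝ} {ν : Measure ℝ}

/-- The bilinear form of the loop relations. -/
def Atoms.rel (a : Atoms K) (s : ℝ) (k l : Fin K) (x : Fin K → ℝ) : ℝ :=
  a.wt k * x l - a.wt l * x k + s * (a.lam k - a.lam l) * x k * x l

/-- The derivative of `rel` at `d` in the direction `x`. -/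
def Atoms.linRel (a : Atoms K) (s : ℝ) (k l : Fin K) (d x : Fin K → ℝ) : ℝ :=
  a.wt k * x l - a.wt l * x k + s * (a.lam k - a.lam l) * (d k * x l + x k * d l)

lemma Atoms.share_zero (a : Atoms K) {e : ℝ} (he : e ≤ 0) (i : Fin K) : a.share s e i = 0 := by
  rw [Atoms.share, if_pos he]

lemma Atoms.share_pos' (a : Atoms K) (hs : 0 ≤ s) {e : ℝ} (he : 0 < e) (i : Fin K) :
    0 < a.share s e i := by
  rcases hs.eq_or_lt with h | h
  · rw [Atoms.share, if_neg he.not_ge, if_pos h.ge]
    exact mul_pos (a.pos i) he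
  · exact ((a.share_spec h he).2 i i).1

lemma Atoms.rel_share (a : Atoms K) (hs : 0 ≤ s) (e : ℝ) (k l : Fin K) :
    a.rel s k l (a.share s e) = 0 := by
  unfold Atoms.rel
  rcases le_or_gt e 0 with he | he
  · simp [a.share_zero he]
  rcases hs.eq_or_lt with h | h
  · simp only [Atoms.share, if_neg he.not_ge, if_pos h.ge]
    rw [← h]
    ring
  · exact ((a.share_spec h he).2 k l).2

lemma Atoms.linRel_rate (a : Atoms K) (hs : 0 ≤ s) {e : ℝ} (he : e ∈ Icc (0 : ℝ) 1) (k l : Fin K) :
    a.linRel s k l (a.share s e) (a.rate s e) = 0 := by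
  obtain ⟨C, hC, -⟩ := a.share_smooth hs
  have hk := (hC e he k).1
  have hl := (hC e he l).1
  have h1 := ((hl.const_mul (a.wt k)).sub (hk.const_mul (a.wt l))).add
    ((hk.mul hl).const_mul (s * (a.lam k - a.lam l)))
  have h2 : HasDerivWithinAt
      (fun e => a.wt k * a.share s e l - a.wt l * a.share s e k +
        s * (a.lam k - a.lam l) * (a.share s e k * a.share s e l)) 0 (Icc 0 1) e :=
    (hasDerivWithinAt_const e (Icc (0 : ℝ) 1) (0 : ℝ)).congr (fun e' _ => by
      have := a.rel_share hs e' k l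
      unfold Atoms.rel at this
      linarith) (by
      have := a.rel_share hs e k l
      unfold Atoms.rel at this
      linarith)
  have := UniqueDiffWithinAt.eq_deriv _ ((uniqueDiffOn_Icc zero_lt_one) e he) h1 h2
  unfold Atoms.linRel
  linarith

/-- The linearised relations determine a direction from its sum. -/
lemma Atoms.linRel_unique (a : Atoms K) (hs : 0 ≤ s) (e : ℝ) {x y : Fin K → ℝ}
    (hx : ∀ k l, a.linRel s k l (a.share s e) x = 0)
    (hy : ∀ k l, a.linRel s k l (a.share s e) y = 0) (hsum : ∑ i, x i = ∑ i, y i) : x = y := by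
  obtain ⟨c, hc, hcr⟩ : ∃ c : Fin K → ℝ, (∀ i, 0 < c i) ∧
      ∀ k l, (x l - y l) * c k = (x k - y k) * c l := by
    rcases le_or_gt e 0 with he | he
    · refine ⟨a.wt, a.pos, fun k l => ?_⟩
      have h1 := hx k l; have h2 := hy k l
      simp only [Atoms.linRel, a.share_zero he] at h1 h2
      linarith
    · refine ⟨fun i => a.share s e i ^ 2 / a.wt i,
        fun i => div_pos (pow_pos (a.share_pos' hs he i) 2) (a.pos i), fun k l => ?_⟩
      have h1 := hx k l; have h2 := hy k l; have h3 := a.rel_share hs e k l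
      unfold Atoms.linRel at h1 h2
      unfold Atoms.rel at h3
      have := (a.pos k).ne'; have := (a.pos l).ne'
      field_simp
      linear_combination (a.share s e k * a.share s e l) * (h1 - h2) -
        ((x l - y l) * a.share s e k + (x k - y k) * a.share s e l) * h3
  funext k
  have h0 : (x k - y k) * ∑ l, c l = 0 := by
    rw [Finset.mul_sum, ← Finset.sum_congr rfl fun l _ => hcr k l, ← Finset.sum_mul,
      Finset.sum_sub_distrib, hsum, sub_self, zero_mul]
  have hne : ∑ l, c l ≠ 0 := (Finset.sum_pos (fun l _ => hc l) ⟨k, Finset.mem_univ k⟩).ne'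
  linarith [(mul_eq_zero.1 h0).resolve_right hne]

/-- The block overlap, continued to the whole line. -/
noncomputable def Atoms.lext (a : Atoms K) (s : ℝ) (ν : Measure ℝ) (w : ℝ) (i : Fin K) : ℝ :=
  ∫ q in (0 : ℝ)..w, a.rate s (tail ν (projIcc (0 : ℝ) 1 zero_le_one q)) i

variable [IsProbabilityMeasure ν]

lemma Atoms.continuous_rate_tail (a : Atoms K) (hs : 0 ≤ s)
    (hν : ∀ᵐ u ∂ν, u ∈ Icc (0 : ℝ) 1) (i : Fin K) :
    Continuous fun q => a.rate s (tail ν (projIcc (0 : ℝ) 1 zero_le_one q)) i := by
  obtain ⟨C, -, hC⟩ := a.share_smooth hs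
  have h1 : ContinuousOn (fun d => a.rate s d i) (Icc 0 1) :=
    LipschitzOnWith.continuousOn (K := C.toNNReal) (LipschitzOnWith.of_dist_le_mul fun d hd d' hd' =>
      (hC d hd d' hd' i).trans (by
        rw [Real.dist_eq]
        exact mul_le_mul_of_nonneg_right (Real.le_coe_toNNReal C) (abs_nonneg _)))
  exact h1.comp_continuous ((Loop.continuous_tail hν).comp (by fun_prop))
    fun q => Loop.tail_mem hν (Subtype.mem _)

lemma Atoms.continuous_lext (a : Atoms K) (hs : 0 ≤ s) (hν : ∀ᵐ u ∂ν, u ∈ Icc (0 : ℝ) 1)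
    (i : Fin K) : Continuous fun w => a.lext s ν w i :=
  intervalIntegral.continuous_primitive
    (fun u v => (a.continuous_rate_tail hs hν i).intervalIntegrable u v) 0

omit [IsProbabilityMeasure ν] in
lemma Atoms.lext_eq (a : Atoms K) {w : ℝ} (hw : w ∈ Icc (0 : ℝ) 1) (i : Fin K) :
    a.lext s ν w i = a.lfun s ν w i := by
  refine intervalIntegral.integral_congr fun q hq => ?_
  rw [uIcc_of_le hw.1] at hq
  simp only [projIcc_of_mem zero_le_one (⟨hq.1, hq.2.trans hw.2⟩ : q ∈ Icc (0 : ℝ) 1)]

lemma Atoms.sum_lext (a : Atoms K) (hs : 0 ≤ s) (hν : ∀ᵐ u ∂ν, u ∈ Icc (0 : ℝ) 1) (w : ℝ) :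
    ∑ i, a.lext s ν w i = w := by
  unfold Atoms.lext
  rw [← intervalIntegral.integral_finsetSum fun i _ =>
    (a.continuous_rate_tail hs hν i).intervalIntegrable 0 w]
  simp [fun q => a.sum_rate hs (Loop.tail_mem hν (Subtype.mem (projIcc (0 : ℝ) 1 zero_le_one q)))]

omit [IsProbabilityMeasure ν] in
/-- Below the support the block overlap is linear. -/
lemma Atoms.lext_linear (a : Atoms K) {q₀ : ℝ} (hq : q₀ ∈ Icc (0 : ℝ) 1)
    (hν : ∀ᵐ u ∂ν, u ∈ Icc q₀ 1) (i : Fin K) :
    a.lext s ν q₀ i = q₀ * a.rate s (tail ν q₀) i := by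
  have e : ∀ q ∈ Icc 0 q₀, tail ν q = tail ν q₀ := fun q h => integral_congr_ae (by
    filter_upwards [hν] with u hu
    rw [max_eq_right (h.2.trans hu.1), max_eq_right hu.1])
  rw [Atoms.lext, intervalIntegral.integral_congr (g := fun _ => a.rate s (tail ν q₀) i) fun q h => ?_]
  · simp
  rw [uIcc_of_le hq.1] at h
  simp only [projIcc_of_mem zero_le_one (⟨h.1, h.2.trans hq.2⟩ : q ∈ Icc (0 : ℝ) 1), e q h]

/-- The share of the tail is the tail of the block overlap. -/
lemma Atoms.share_tail (a : Atoms K) (hs : 0 ≤ s) (hν : ∀ᵐ u ∂ν, u ∈ Icc (0 : ℝ) 1) {w : ℝ}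
    (hw : w ∈ Icc (0 : ℝ) 1) (i : Fin K) :
    a.share s (tail ν w) i = a.lext s ν 1 i - ∫ u, a.lext s ν (max w u) i ∂ν := by
  set g : ℝ → ℝ := fun q => a.rate s (tail ν (projIcc (0 : ℝ) 1 zero_le_one q)) i with hg
  have hgc : Continuous g := a.continuous_rate_tail hs hν i
  have hLc : Continuous fun w => a.lext s ν w i := a.continuous_lext hs hν i
  obtain ⟨C₀, hC1, hC2⟩ := a.share_smooth hs
  set C : ℝ := max C₀ 0 with hCdef
  have hC0 : 0 ≤ C := le_max_right _ _
  have hrl : ∀ d ∈ Icc (0 : ℝ) 1, ∀ d' ∈ Icc (0 : ℝ) 1,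
      |a.rate s d i - a.rate s d' i| ≤ C * |d - d'| := fun d hd d' hd' =>
    (hC2 d hd d' hd' i).trans (mul_le_mul_of_nonneg_right (le_max_left _ _) (abs_nonneg _))
  set ψ : ℝ → ℝ := fun w => a.share s (tail ν w) i + ∫ u, a.lext s ν (max w u) i ∂ν with hψ
  have hquad : ∀ x y, 0 ≤ x → x ≤ y → y ≤ 1 → |ψ y - ψ x| ≤ 2 * C * (y - x) ^ 2 := by
    intro x y hx hxy hy
    have hxI : x ∈ Icc (0 : ℝ) 1 := ⟨hx, hxy.trans hy⟩
    have hyI : y ∈ Icc (0 : ℝ) 1 := ⟨hx.trans hxy, hy⟩
    have htx := Loop.tail_mem hν hxI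
    have hty := Loop.tail_mem hν hyI
    obtain ⟨hδ0, hδ1⟩ := Loop.tail_lip hν hxy
    have hpt : ∀ u, |a.lext s ν (max y u) i - a.lext s ν (max x u) i -
        g x * (max y u - max x u)| ≤ C * (y - x) ^ 2 := by
      intro u
      rcases le_or_gt y u with h | h
      · rw [max_eq_right h, max_eq_right (hxy.trans h)]
        simpa using mul_nonneg hC0 (sq_nonneg (y - x))
      have hlo : x ≤ max x u := le_max_left _ _
      have hhi : max x u ≤ y := max_le hxy h.le
      rw [max_eq_left h.le]
      have e : a.lext s ν y i - a.lext s ν (max x u) i - g x * (y - max x u) =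
          ∫ q in (max x u)..y, (g q - g x) := by
        rw [intervalIntegral.integral_sub (hgc.intervalIntegrable _ _) intervalIntegrable_const,
          intervalIntegral.integral_const, smul_eq_mul, Atoms.lext, Atoms.lext,
          intervalIntegral.integral_interval_sub_left (hgc.intervalIntegrable _ _)
            (hgc.intervalIntegrable _ _)]
        ring
      rw [e]
      have := intervalIntegral.norm_integral_le_of_norm_le_const (a := max x u) (b := y)
        (f := fun q => g q - g x) (C := C * (y - x)) fun q hq => by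
          rw [uIoc_of_le hhi] at hq
          have hqI : q ∈ Icc (0 : ℝ) 1 := ⟨by linarith [hq.1], hq.2.trans hy⟩
          simp only [hg, projIcc_of_mem zero_le_one hqI, projIcc_of_mem zero_le_one hxI,
            Real.norm_eq_abs]
          refine (hrl _ (Loop.tail_mem hν hqI) _ htx).trans (mul_le_mul_of_nonneg_left ?_ hC0)
          obtain ⟨e1, e2⟩ := Loop.tail_lip hν (show x ≤ q by linarith [hq.1])
          rw [abs_sub_comm, abs_of_nonneg e1]
          linarith [hq.2]
      rw [Real.norm_eq_abs] at this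
      refine this.trans ?_
      rw [abs_of_nonneg (by linarith : (0 : ℝ) ≤ y - max x u), sq, ← mul_assoc]
      exact mul_le_mul_of_nonneg_left (by linarith) (mul_nonneg hC0 (by linarith))
    have h1 : |(∫ u, a.lext s ν (max y u) i ∂ν) - (∫ u, a.lext s ν (max x u) i ∂ν) -
        g x * (tail ν x - tail ν y)| ≤ C * (y - x) ^ 2 := by
      have hiy : Integrable (fun u => a.lext s ν (max y u) i) ν :=
        Loop.integrable_cont hν (hLc.comp (f := fun u => max y u) (by fun_prop))
      have hix : Integrable (fun u => a.lext s ν (max x u) i) ν :=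
        Loop.integrable_cont hν (hLc.comp (f := fun u => max x u) (by fun_prop))
      have hid : Integrable (fun u => g x * (max y u - max x u)) ν :=
        Loop.integrable_cont hν (by fun_prop)
      rw [Loop.tail_sub hν, ← integral_const_mul, ← integral_sub hiy hix,
        ← integral_sub (f := fun u => a.lext s ν (max y u) i - a.lext s ν (max x u) i)
          (hiy.sub hix) hid]
      rw [← Real.norm_eq_abs]
      refine (norm_integral_le_of_norm_le_const (C := C * (y - x) ^ 2)
        (Eventually.of_forall fun u => (Real.norm_eq_abs _).trans_le (hpt u))).trans_eq ?_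
      simp
    have h2 : |a.share s (tail ν y) i - a.share s (tail ν x) i -
        g x * (tail ν y - tail ν x)| ≤ C * (y - x) ^ 2 := by
      have hgx : g x = a.rate s (tail ν x) i := by simp only [hg, projIcc_of_mem zero_le_one hxI]
      have hd : ∀ e ∈ Icc (tail ν y) (tail ν x), HasDerivWithinAt
          (fun e => a.share s e i - g x * e) (a.rate s e i - g x) (Icc (tail ν y) (tail ν x)) e := by
        intro e he
        have := ((hC1 e ⟨hty.1.trans he.1, he.2.trans htx.2⟩ i).1.mono
          (Icc_subset_Icc hty.1 htx.2)).sub ((hasDerivWithinAt_id e _).const_mul (g x))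
        simp only [mul_one] at this
        exact this
      have := Convex.norm_image_sub_le_of_norm_hasDerivWithin_le (C := C * (y - x)) hd
        (fun e he => by
          rw [Real.norm_eq_abs, hgx]
          refine (hrl e ⟨hty.1.trans he.1, he.2.trans htx.2⟩ _ htx).trans
            (mul_le_mul_of_nonneg_left ?_ hC0)
          rw [abs_le]
          constructor <;> linarith [he.1, he.2])
        (convex_Icc _ _) (right_mem_Icc.2 (by linarith)) (left_mem_Icc.2 (by linarith))
      simp only [Real.norm_eq_abs] at this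
      rw [show a.share s (tail ν y) i - a.share s (tail ν x) i - g x * (tail ν y - tail ν x) =
        a.share s (tail ν y) i - g x * tail ν y - (a.share s (tail ν x) i - g x * tail ν x) by ring]
      refine this.trans ?_
      rw [abs_sub_comm, abs_of_nonneg hδ0, sq, ← mul_assoc]
      exact mul_le_mul_of_nonneg_left hδ1 (mul_nonneg hC0 (by linarith))
    have := abs_le.1 h1
    have := abs_le.1 h2
    rw [abs_le, hψ]
    constructor <;> linarith
  have h := Loop.eq_of_quadratic hquad hw
  simp only [hψ, Loop.tail_one hν, a.share_zero le_rfl] at h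
  have e1 : ∫ u, a.lext s ν (max 1 u) i ∂ν = a.lext s ν 1 i := by
    rw [integral_congr_ae (g := fun _ => a.lext s ν 1 i)
      (hν.mono fun u hu => by simp [max_eq_left hu.2]), Loop.integral_const_one]
  linarith

end Vale.Agent.P166F
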