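import Vale.Agent.P166F.Loop.Pairs
import Vale.Agent.P166F.Loop.Share

/-!
P166: the loop equation in terms of the total overlap.
-/

namespace Vale.Agent.P166F

open MeasureTheory Set Filter
open scoped Topology

set_option linter.unusedSectionVars false

variable {J : Type} [Fintype J] [DecidableEq J] {v : J → ℝ} {K : ℕ}

namespace Loop

/-- The kernel of two blocks at two totals. -/
def kern (f g : ℝ → ℝ) (z u : ℝ) : ℝ :=
  f (max z u) * g z + f z * g (max z u) + f (min z u) * g (min z u) - f z * g z

/-- Part of the product of two blocks carried by the first further total. -/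
def partA (f g : ℝ → ℝ) (z u : ℝ) : ℝ :=
  f (min z u) * g (min z u) + (f (max z u) - f z) * g z

/-- Part carried by the second further total. -/
def partB (f g : ℝ → ℝ) (z u : ℝ) : ℝ := f z * (g (max z u) - g z)

lemma parts_eq (f g : ℝ → ℝ) (z u : ℝ) :
    partA f g z u + partB f g z u + f z * g z = kern f g z u := by
  unfold partA partB kern; ring

/-- On an ultrametric triple the product of the other two blocks splits. -/
lemma prod_split (f g : ℝ → ℝ) {w u u' : ℝ} (h1 : min w u ≤ u') (h2 : min w u' ≤ u)
    (h3 : min u u' ≤ w) : f u * g u' = partA f g w u + partB f g w u' := by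
  unfold partA partB
  rcases lt_trichotomy u w with h | h | h
  · have e : u' = u := by
      rw [min_eq_right h.le] at h1
      rcases min_le_iff.1 h2 with h' | h' <;> linarith
    rw [e, min_eq_right h.le, max_eq_left h.le]; ring
  · have e : w ≤ u' := by rw [h, min_self] at h1; exact h1
    rw [h, min_self, max_self, max_eq_right e]; ring
  · have e : u' = w := by
      rw [min_eq_left h.le] at h1
      rcases min_le_iff.1 h3 with h' | h' <;> linarith
    rw [e, min_eq_left h.le, max_eq_right h.le, max_self]; ring

/-- The defect of the product formula for tails is antisymmetric. -/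
lemma kern_antisymm (f g : ℝ → ℝ) (w a b : ℝ) :
    kern f g (max w a) b - f b * g b - f (max w a) * g (max w b) +
      (kern f g (max w b) a - f a * g a - f (max w b) * g (max w a)) = 0 := by
  unfold kern
  rcases le_total a w with h | h <;> rcases le_total b w with h' | h'
  · simp [max_eq_left h, max_eq_left h', min_eq_right h, min_eq_right h']; ring
  · simp [max_eq_left h, max_eq_right h', min_eq_left h', max_eq_left (h.trans h'),
      min_eq_right (h.trans h')]; ring
  · simp [max_eq_left h', max_eq_right h, min_eq_left h, max_eq_left (h'.trans h),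
      min_eq_right (h'.trans h)]; ring
  · rcases le_total a b with h'' | h''
    · simp [max_eq_right h, max_eq_right h', max_eq_right h'', max_eq_left h'', min_eq_left h'',
        min_eq_right h'']; ring
    · simp [max_eq_right h, max_eq_right h', max_eq_right h'', max_eq_left h'', min_eq_left h'',
        min_eq_right h'']; ring

/-- The loop expression as a function of one total. -/
noncomputable def loopFun (a : Atoms K) (s : ℝ) (x : Fin K → ℝ) (F : Fin K → ℝ → ℝ) (ν : Measure ℝ)
    (k l : Fin K) (w : ℝ) : ℝ :=
  a.wt k * F l w - a.wt l * F k w + s * (a.lam k - a.lam l) *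
    (x k * F l w + F k w * x l - ∫ u, kern (F k) (F l) w u ∂ν)

lemma continuous_loopFun {a : Atoms K} {s : ℝ} {x : Fin K → ℝ} {F : Fin K → ℝ → ℝ}
    (hF : ∀ k, Continuous (F k)) {ν : Measure ℝ} [IsProbabilityMeasure ν]
    (hν : ∀ᵐ u ∂ν, u ∈ Icc (0 : ℝ) 1) (k l : Fin K) : Continuous (loopFun a s x F ν k l) := by
  have := hF k; have := hF l
  have := continuous_integral_cont hν (h := kern (F k) (F l)) (by unfold kern; fun_prop)
  unfold loopFun
  fun_prop

/-- The tail of the loop expression is the relation of the tails. -/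
lemma tail_loopFun {a : Atoms K} {s : ℝ} {x : Fin K → ℝ} {F : Fin K → ℝ → ℝ}
    (hF : ∀ k, Continuous (F k)) {ν : Measure ℝ} [IsProbabilityMeasure ν]
    (hν : ∀ᵐ u ∂ν, u ∈ Icc (0 : ℝ) 1) (k l : Fin K) (w : ℝ) :
    a.rel s k l (fun i => x i - ∫ u, F i (max w u) ∂ν) =
      a.wt k * x l - a.wt l * x k + s * (a.lam k - a.lam l) *
          (x k * x l - ∫ u, F k u * F l u ∂ν) -
        ∫ u, loopFun a s x F ν k l (max w u) ∂ν := by
  have := hF k; have := hF l
  set h : ℝ × ℝ → ℝ := fun z => kern (F k) (F l) (max w z.1) z.2 - F k z.2 * F l z.2 -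
    F k (max w z.1) * F l (max w z.2) with hh
  have hhc : Continuous h := by simp only [hh, kern]; fun_prop
  have hhi := integrable_cont_two (ae_prod_unit hν) hhc
  have hX : ∫ z, h z ∂ν.prod ν = 0 := by
    have e : ∫ z, h z ∂ν.prod ν = - ∫ z, h z ∂ν.prod ν := by
      rw [← integral_neg]
      calc ∫ z, h z ∂ν.prod ν = ∫ z, h z.swap ∂ν.prod ν := (integral_prod_swap h).symm
        _ = ∫ z, - h z ∂ν.prod ν := integral_congr_ae (Eventually.of_forall fun z => by
          have := kern_antisymm (F k) (F l) w z.1 z.2
          simp only [hh, Prod.fst_swap, Prod.snd_swap]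
          linarith)
    linarith
  have hmax : Continuous fun u => max w u := by fun_prop
  have iK : ∀ z, Integrable (kern (F k) (F l) z) ν := fun z =>
    integrable_cont hν (by unfold kern; fun_prop)
  have ifg : Integrable (fun u => F k u * F l u) ν := integrable_cont hν (by fun_prop)
  have iM : ∀ i, Integrable (fun u => F i (max w u)) ν := fun i =>
    integrable_cont hν ((hF i).comp hmax)
  have hG : Continuous fun z => ∫ u, kern (F k) (F l) z u ∂ν :=
    continuous_integral_cont hν (by unfold kern; fun_prop)
  have iG : Integrable (fun u => ∫ u', kern (F k) (F l) (max w u) u' ∂ν) ν :=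
    integrable_cont hν (hG.comp hmax)
  have hinner : ∀ u, ∫ u', h (u, u') ∂ν = ((∫ u', kern (F k) (F l) (max w u) u' ∂ν) -
      ∫ u', F k u' * F l u' ∂ν) - F k (max w u) * ∫ u', F l (max w u') ∂ν := fun u => by
    simp only [hh]
    rw [integral_sub ((iK _).sub' ifg) ((iM l).const_mul _), integral_sub (iK _) ifg,
      integral_const_mul]
  rw [integral_prod _ hhi, integral_congr_ae (Eventually.of_forall hinner),
    integral_sub (iG.sub' (integrable_const _)) ((iM k).mul_const _),
    integral_sub iG (integrable_const _), integral_const_one, integral_mul_const] at hX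
  have hlin : ∫ u, loopFun a s x F ν k l (max w u) ∂ν =
      a.wt k * (∫ u, F l (max w u) ∂ν) - a.wt l * (∫ u, F k (max w u) ∂ν) +
        s * (a.lam k - a.lam l) * (x k * (∫ u, F l (max w u) ∂ν) +
          (∫ u, F k (max w u) ∂ν) * x l - ∫ u, ∫ u', kern (F k) (F l) (max w u) u' ∂ν ∂ν) := by
    simp only [loopFun]
    rw [integral_add (((iM l).const_mul _).sub' ((iM k).const_mul _))
        (((((iM l).const_mul _).fun_add ((iM k).mul_const _)).sub' iG).const_mul _),
      integral_sub ((iM l).const_mul _) ((iM k).const_mul _), integral_const_mul, integral_const_mul,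
      integral_const_mul, integral_sub (((iM l).const_mul _).fun_add ((iM k).mul_const _)) iG,
      integral_add ((iM l).const_mul _) ((iM k).mul_const _), integral_const_mul,
      integral_mul_const]
  rw [hlin, Atoms.rel]
  linear_combination (-(s * (a.lam k - a.lam l))) * hX

end Loop

variable (A : JArr J v) (ι : Fin K → J)

lemma JArr.ultra_block (n : ℕ) : ∀ᵐ R ∂A.law n, ∀ a b d,
    min (blockSum ι (R a b)) (blockSum ι (R b d)) ≤ blockSum ι (R a d) := by
  have hsum : ∀ x : J → ℝ,
      ∑ j, (∑ k : Fin K, if ι k = j then (1 : ℝ) else 0) * x j = blockSum ι x := fun x => by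
    simp only [Finset.sum_mul]
    rw [Finset.sum_comm]
    simp [blockSum]
  filter_upwards [A.ultra_all (c := fun j => ∑ k : Fin K, if ι k = j then (1 : ℝ) else 0)
    (fun j => Finset.sum_nonneg fun k _ => by split_ifs <;> norm_num) n] with R hR a b d
  have h := hR a b d
  simp only [hsum] at h
  exact h

/-- The totals from replica one have the law of the totals from replica zero. -/
lemma JArr.pairLaw_one :
    (A.law 3).map (fun R => (blockSum ι (R 0 1), blockSum ι (R 1 2))) = A.pairLaw ι := by
  have he : Function.Injective (![1, 0, 2] : Fin 3 → Fin 3) := by decide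
  conv_rhs => rw [JArr.pairLaw, ← A.marg _ he, Measure.map_map
    (Continuous.measurable (by fun_prop)) (continuous_osub _).measurable]
  refine Measure.map_congr ?_
  filter_upwards [A.symm 3] with R hR
  change _ = (blockSum ι (R 1 0), blockSum ι (R 1 2))
  rw [hR 1 0]

variable {A ι} {a : Atoms K} {s : ℝ} {F : Fin K → ℝ → ℝ}

/-- The loop expression vanishes against the law of the total. -/
lemma LoopEq.loopFun_zero (h : LoopEq a s ι A) (hF : ∀ k, Continuous (F k))
    (hx : ∀ᵐ R ∂A.law 2, ∀ k, R 0 1 (ι k) = F k (blockSum ι (R 0 1))) (k l : Fin K) :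
    Loop.loopFun a s (fun i => v (ι i)) F (A.total ι) k l =ᵐ[A.total ι] 0 := by
  have := A.prob 3
  have := A.isProb_total ι
  have := hF k; have := hF l
  have hν := A.ae_total ι h.total
  set Λ := Loop.loopFun a s (fun i => v (ι i)) F (A.total ι) k l with hΛ
  have hΛc : Continuous Λ := Loop.continuous_loopFun hF hν k l
  set φ : ℝ → ℝ := Λ with hφ
  set c : ℝ := s * (a.lam k - a.lam l) with hc
  set q : ℝ → ℝ := fun w => φ w * (a.wt k * F l w - a.wt l * F k w +
    c * (v (ι k) * F l w + F k w * v (ι l))) with hq
  set HA : ℝ → ℝ → ℝ := fun w u => φ w * Loop.partA (F k) (F l) w u with hHA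
  set HB : ℝ → ℝ → ℝ := fun w u => φ w * Loop.partB (F k) (F l) w u with hHB
  have hqc : Continuous (Function.uncurry fun w (_ : ℝ) => q w) := by
    simp only [hq]; fun_prop
  have hAc : Continuous (Function.uncurry HA) := by simp only [hHA, Loop.partA]; fun_prop
  have hBc : Continuous (Function.uncurry HB) := by simp only [hHB, Loop.partB]; fun_prop
  have e01 : Function.Injective (![0, 1] : Fin 2 → Fin 3) := by decide
  have e02 : Function.Injective (![0, 2] : Fin 2 → Fin 3) := by decide
  have e12 : Function.Injective (![1, 2] : Fin 2 → Fin 3) := by decide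
  have hpt : ∀ᵐ R ∂A.law 3, φ (∑ i, R 0 1 (ι i)) * loopPoly a s ι k l R =
      q (blockSum ι (R 0 1)) - 2 * c * (HA (blockSum ι (R 0 1)) (blockSum ι (R 0 2)) +
        HB (blockSum ι (R 0 1)) (blockSum ι (R 1 2))) := by
    filter_upwards [A.ae_osub _ e01 hx, A.ae_osub _ e02 hx, A.ae_osub _ e12 hx, A.symm 3,
      A.diag 3, A.ultra_block ι 3] with R h01 h02 h12 hs hd hu
    change ∀ k, R 0 1 (ι k) = F k (blockSum ι (R 0 1)) at h01
    change ∀ k, R 0 2 (ι k) = F k (blockSum ι (R 0 2)) at h02
    change ∀ k, R 1 2 (ι k) = F k (blockSum ι (R 1 2)) at h12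
    have hsplit := Loop.prod_split (F k) (F l) (w := blockSum ι (R 0 1)) (u := blockSum ι (R 0 2))
      (u' := blockSum ι (R 1 2))
      (by have := hu 1 0 2; rwa [hs 1 0] at this)
      (hu 0 1 2) (by have := hu 0 2 1; rwa [hs 2 1] at this)
    rw [loopPoly, hs 2 1, hd 0, hd 1, h01 k, h01 l, h02 k, h12 l, hsplit]
    simp only [hq, hHA, hHB, hc]
    unfold blockSum
    ring
  have hm2 : Measurable fun R : OArr J 3 => (blockSum ι (R 0 1), blockSum ι (R 0 2)) :=
    Continuous.measurable (by fun_prop)
  have hm1 : Measurable fun R : OArr J 3 => (blockSum ι (R 0 1), blockSum ι (R 1 2)) :=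
    Continuous.measurable (by fun_prop)
  have : IsProbabilityMeasure (A.pairLaw ι) := Measure.isProbabilityMeasure_map hm2.aemeasurable
  have hi : ∀ {H : ℝ → ℝ → ℝ}, Continuous (Function.uncurry H) →
      Integrable (fun R : OArr J 3 => H (blockSum ι (R 0 1)) (blockSum ι (R 0 2))) (A.law 3) :=
    fun {H} hH => (integrable_map_measure hH.aestronglyMeasurable hm2.aemeasurable).1
      (Loop.integrable_cont_two (A.ae_pairLaw ι h.total) hH)
  have hiB : Integrable (fun R : OArr J 3 => HB (blockSum ι (R 0 1)) (blockSum ι (R 1 2)))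
      (A.law 3) := by
    refine (integrable_map_measure hBc.aestronglyMeasurable hm1.aemeasurable).1 ?_
    rw [A.pairLaw_one]
    exact Loop.integrable_cont_two (A.ae_pairLaw ι h.total) hBc
  have hswap : ∫ R, HB (blockSum ι (R 0 1)) (blockSum ι (R 1 2)) ∂A.law 3 =
      ∫ R, HB (blockSum ι (R 0 1)) (blockSum ι (R 0 2)) ∂A.law 3 := by
    calc ∫ R, HB (blockSum ι (R 0 1)) (blockSum ι (R 1 2)) ∂A.law 3
        = ∫ z, Function.uncurry HB z ∂A.pairLaw ι := by
          rw [← A.pairLaw_one, integral_map hm1.aemeasurable hBc.aestronglyMeasurable]; rfl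
      _ = _ := by rw [JArr.pairLaw, integral_map hm2.aemeasurable hBc.aestronglyMeasurable]; rfl
  have h0 := h.two k l φ (hφ ▸ hΛc)
  rw [integral_congr_ae hpt, integral_sub (hi hqc) (((hi hAc).fun_add hiB).const_mul _),
    integral_const_mul, integral_add (hi hAc) hiB, hswap] at h0
  have t0 := A.two_mul_integral ι h.total hqc
  have tA := A.two_mul_integral ι h.total hAc
  have tB := A.two_mul_integral ι h.total hBc
  have hqi : Integrable q (A.total ι) := Loop.integrable_cont hν (by simp only [hq]; fun_prop)
  simp only [Loop.integral_const_one, ← two_mul, integral_const_mul] at t0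
  have hsq : ∫ w, Λ w ^ 2 ∂A.total ι = 0 := by
    have hpair : ∀ {H : ℝ → ℝ → ℝ}, Continuous (Function.uncurry H) →
        Integrable (fun w => (∫ u, H w u ∂A.total ι) + H w w) (A.total ι) := fun {H} hH =>
      (Loop.integrable_cont hν (Loop.continuous_integral_cont hν hH)).fun_add
        (Loop.integrable_cont hν (hH.comp (f := fun w => (w, w)) (by fun_prop)))
    have key : ∀ w, Λ w ^ 2 = q w - c * (((∫ u, HA w u ∂A.total ι) + HA w w) +
        ((∫ u, HB w u ∂A.total ι) + HB w w)) := by
      intro w
      have hk : ∫ u, Loop.kern (F k) (F l) w u ∂A.total ι =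
          (∫ u, Loop.partA (F k) (F l) w u ∂A.total ι) +
            (∫ u, Loop.partB (F k) (F l) w u ∂A.total ι) + F k w * F l w := by
        have iA : Integrable (Loop.partA (F k) (F l) w) (A.total ι) :=
          Loop.integrable_cont hν (by unfold Loop.partA; fun_prop)
        have iB : Integrable (Loop.partB (F k) (F l) w) (A.total ι) :=
          Loop.integrable_cont hν (by unfold Loop.partB; fun_prop)
        rw [← integral_add iA iB, ← Loop.integral_const_one (ν := A.total ι) (F k w * F l w),
          ← integral_add (iA.fun_add iB) (integrable_const _)]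
        simp only [Loop.parts_eq]
      simp only [hHA, hHB, integral_const_mul, hq]
      rw [show Λ w ^ 2 = φ w * Λ w by rw [hφ]; ring]
      conv_lhs => rw [hΛ, Loop.loopFun, hk, ← hc]
      simp only [Loop.partA, Loop.partB, min_self, max_self]
      ring
    rw [integral_congr_ae (Eventually.of_forall key), integral_sub hqi
      (((hpair hAc).fun_add (hpair hBc)).const_mul _), integral_const_mul,
      integral_add (hpair hAc) (hpair hBc)]
    linear_combination h0 - (1 / 2) * t0 + c * tA + c * tB
  have hae := (integral_eq_zero_iff_of_nonneg (fun w => sq_nonneg (Λ w))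
    (Loop.integrable_cont hν (hΛc.pow 2))).1 hsq
  filter_upwards [hae] with w hw
  exact (pow_eq_zero_iff two_ne_zero).1 hw

end Vale.Agent.P166F
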