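import Vale.Agent.P166F.Structure
import Vale.Agent.P166F.Loop.Unit

/-!
P166: the total overlap of a limit array, synchronisation, and the law of two overlaps at a replica.
-/

namespace Vale.Agent.P166F

open MeasureTheory Set Filter
open scoped Topology

set_option linter.unusedSectionVars false

variable {J : Type} [Fintype J] [DecidableEq J] {v : J → ℝ} {K : ℕ}

/-- The sum of the blocks. -/
def blockSum (ι : Fin K → J) (x : J → ℝ) : ℝ := ∑ i, x (ι i)

@[fun_prop]
lemma continuous_blockSum (ι : Fin K → J) : Continuous (blockSum ι) := by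
  unfold blockSum; fun_prop

lemma JArr.total_eq (A : JArr J v) (ι : Fin K → J) :
    A.total ι = (A.law 2).map fun R => blockSum ι (R 0 1) := rfl

lemma JArr.isProb_total (A : JArr J v) (ι : Fin K → J) : IsProbabilityMeasure (A.total ι) := by
  have := A.prob 2
  rw [A.total_eq]
  exact Measure.isProbabilityMeasure_map (Continuous.measurable (by fun_prop)).aemeasurable

lemma JArr.ae_block (A : JArr J v) (ι : Fin K → J) (hι : ∑ k, v (ι k) = 1) :
    ∀ᵐ R ∂A.law 2, blockSum ι (R 0 1) ∈ Icc (0 : ℝ) 1 := by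
  filter_upwards [A.nonneg] with R hR
  exact ⟨Finset.sum_nonneg fun i _ => (hR _).1,
    (Finset.sum_le_sum fun i _ => (hR (ι i)).2).trans_eq hι⟩

lemma JArr.ae_total (A : JArr J v) (ι : Fin K → J) (hι : ∑ k, v (ι k) = 1) :
    ∀ᵐ u ∂A.total ι, u ∈ Icc (0 : ℝ) 1 :=
  (ae_map_iff (Continuous.measurable (by fun_prop)).aemeasurable measurableSet_Icc).2
    (A.ae_block ι hι)

/-- Every block is a Lipschitz function of the sum. -/
lemma JArr.exists_sync (A : JArr J v) (ι : Fin K → J) :
    ∃ F : Fin K → ℝ → ℝ, (∀ k, Continuous (F k)) ∧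
      ∀ᵐ R ∂A.law 2, ∀ k, R 0 1 (ι k) = F k (blockSum ι (R 0 1)) := by
  have := A.prob 2
  set C : Set (OArr J 2 × OArr J 2) := {z | ∀ k, |z.1 0 1 (ι k) - z.2 0 1 (ι k)| ≤
    |blockSum ι (z.1 0 1) - blockSum ι (z.2 0 1)|} with hC
  have hCc : IsClosed C := by
    simp only [hC, Set.ofPred_forall]
    exact isClosed_iInter fun k => isClosed_le (by fun_prop) (by fun_prop)
  have hae : ∀ᵐ z ∂(A.law 2).prod (A.law 2), z ∈ C := by
    filter_upwards [ae_all_iff.2 fun i => ae_all_iff.2 fun j => A.comono (ι i) (ι j)] with z hz k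
    have key : ∀ x y : Fin K → ℝ, (∀ i j, x i < y i → x j ≤ y j) → ∀ k, x k ≤ y k →
        |x k - y k| ≤ |∑ i, x i - ∑ i, y i| := by
      intro x y hxy k hk
      rw [abs_sub_comm, abs_of_nonneg (sub_nonneg.2 hk), abs_sub_comm, ← Finset.sum_sub_distrib]
      rcases hk.eq_or_lt with h | h
      · rw [h, sub_self]; exact abs_nonneg _
      · exact (Finset.single_le_sum (f := fun i => y i - x i)
          (fun i _ => sub_nonneg.2 (hxy k i h)) (Finset.mem_univ k)).trans (le_abs_self _)
    rcases le_total (z.1 0 1 (ι k)) (z.2 0 1 (ι k)) with h | h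
    · exact key (fun i => z.1 0 1 (ι i)) (fun i => z.2 0 1 (ι i)) hz k h
    · rw [abs_sub_comm, abs_sub_comm (blockSum ι (z.1 0 1))]
      refine key (fun i => z.2 0 1 (ι i)) (fun i => z.1 0 1 (ι i)) (fun i j hlt => ?_) k h
      by_contra hc
      exact absurd (hz j i (not_le.1 hc)) (not_le.2 hlt)
  set T := (A.law 2).support with hT
  have hgood : ∀ R ∈ T, ∀ R' ∈ T, (R, R') ∈ C := by
    intro R hR R' hR'
    by_contra hc
    obtain ⟨U, V, hU, hV, hRU, hRV, hUV⟩ := isOpen_prod_iff.1 hCc.isOpen_compl R R' hc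
    have h0 : (A.law 2).prod (A.law 2) (U ×ˢ V) = 0 := measure_mono_null hUV (ae_iff.1 hae)
    rw [Measure.prod_prod] at h0
    rcases mul_eq_zero.1 h0 with h | h
    · exact ((Measure.mem_support_iff_forall R).1 hR U (hU.mem_nhds hRU)).ne' h
    · exact ((Measure.mem_support_iff_forall R').1 hR' V (hV.mem_nhds hRV)).ne' h
  have hext : ∀ k, ∃ F : ℝ → ℝ, Continuous F ∧ ∀ R ∈ T, R 0 1 (ι k) = F (blockSum ι (R 0 1)) := by
    intro k
    classical
    set W : OArr J 2 → ℝ := fun R => blockSum ι (R 0 1) with hW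
    set g : ℝ → ℝ := fun w => if h : ∃ R ∈ T, W R = w then h.choose 0 1 (ι k) else 0 with hg
    have hgR : ∀ R ∈ T, g (W R) = R 0 1 (ι k) := by
      intro R hR
      have h : ∃ R' ∈ T, W R' = W R := ⟨R, hR, rfl⟩
      simp only [hg, dif_pos h]
      obtain ⟨h1, h2⟩ := h.choose_spec
      have h3 := hgood _ h1 _ hR k
      simp only [hW] at h2
      simp only [h2, sub_self, abs_zero, abs_nonpos_iff, sub_eq_zero] at h3
      exact h3
    have hlip : LipschitzOnWith 1 g (W '' T) := by
      refine LipschitzOnWith.of_dist_le_mul ?_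
      rintro _ ⟨R, hR, rfl⟩ _ ⟨R', hR', rfl⟩
      rw [hgR R hR, hgR R' hR', NNReal.coe_one, one_mul]
      exact hgood R hR R' hR' k
    obtain ⟨F, hF, heq⟩ := hlip.extend_real
    exact ⟨F, hF.continuous, fun R hR => by rw [← hgR R hR, heq (mem_image_of_mem W hR)]⟩
  choose F hF hFe using hext
  refine ⟨F, hF, ?_⟩
  filter_upwards [show ∀ᵐ R ∂A.law 2, R ∈ T from Measure.support_mem_ae] with R hR k
  exact hFe k R hR

/-- The law of the totals from replica zero to the next two. -/
noncomputable def JArr.pairLaw (A : JArr J v) (ι : Fin K → J) : Measure (ℝ × ℝ) :=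
  (A.law 3).map fun R => (blockSum ι (R 0 1), blockSum ι (R 0 2))

omit [Fintype J] [DecidableEq J] in
lemma abs_ind_le (s : Set ℝ) (x : ℝ) : |s.indicator (1 : ℝ → ℝ) x| ≤ 1 := by
  by_cases h : x ∈ s <;> simp [h]

omit [Fintype J] [DecidableEq J] in
lemma ind_mul_ind (s t : Set ℝ) (x y : ℝ) :
    s.indicator (1 : ℝ → ℝ) x * t.indicator (1 : ℝ → ℝ) y = (s ×ˢ t).indicator (1 : ℝ × ℝ → ℝ) (x, y) := by
  by_cases hx : x ∈ s <;> by_cases hy : y ∈ t <;> simp [hx, hy]

lemma JArr.two_pairLaw (A : JArr J v) (ι : Fin K → J) :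
    A.pairLaw ι + A.pairLaw ι =
      (A.total ι).prod (A.total ι) + (A.total ι).map fun w => (w, w) := by
  have := A.prob 2; have := A.prob 3
  have := A.isProb_total ι
  have hm : Measurable fun R : OArr J 3 => (blockSum ι (R 0 1), blockSum ι (R 0 2)) :=
    Continuous.measurable (by fun_prop)
  have hW : Measurable fun R : OArr J 2 => blockSum ι (R 0 1) := Continuous.measurable (by fun_prop)
  have : IsProbabilityMeasure (A.pairLaw ι) := Measure.isProbabilityMeasure_map hm.aemeasurable
  have : IsProbabilityMeasure ((A.total ι).map fun w => (w, w)) :=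
    Measure.isProbabilityMeasure_map (by fun_prop)
  refine Measure.ext_prod fun {s t} hs ht => ?_
  have h := A.gg 2 0 (fun R => s.indicator 1 (blockSum ι (R 0 1)))
    (fun x => t.indicator 1 (blockSum ι x))
    ((measurable_const.indicator hs).comp hW)
    ((measurable_const.indicator ht).comp (continuous_blockSum ι).measurable)
    ⟨1, fun R => abs_ind_le s _⟩ ⟨1, fun x => abs_ind_le t _⟩
  rw [show (Finset.univ.erase (0 : Fin 2)) = {1} by decide, Finset.sum_singleton] at h
  have e3 : ∫ R, s.indicator 1 (blockSum ι (osub R (Fin.castSucc : Fin 2 → Fin 3) 0 1)) *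
      t.indicator 1 (blockSum ι (R (0 : Fin 2).castSucc (Fin.last 2))) ∂A.law 3 =
      (A.pairLaw ι).real (s ×ˢ t) := by
    rw [JArr.pairLaw, map_measureReal_apply hm (hs.prod ht),
      ← integral_indicator_one (hm (hs.prod ht))]
    refine integral_congr_ae (Eventually.of_forall fun R => ?_)
    change s.indicator 1 (blockSum ι (R 0 1)) * t.indicator 1 (blockSum ι (R 0 2)) = _
    exact ind_mul_ind s t _ _
  have e2 : ∀ {u : Set ℝ}, MeasurableSet u →
      ∫ R, u.indicator (1 : ℝ → ℝ) (blockSum ι (R 0 1)) ∂A.law 2 = (A.total ι).real u := by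
    intro u hu
    rw [A.total_eq, map_measureReal_apply hW hu, ← integral_indicator_one (hW hu)]
    rfl
  have e22 : ∫ R, s.indicator (1 : ℝ → ℝ) (blockSum ι (R 0 1)) *
      t.indicator (1 : ℝ → ℝ) (blockSum ι (R 0 1)) ∂A.law 2 =
      ((A.total ι).map fun w => (w, w)).real (s ×ˢ t) := by
    rw [map_measureReal_apply (by fun_prop) (hs.prod ht),
      show (fun w : ℝ => (w, w)) ⁻¹' (s ×ˢ t) = s ∩ t from rfl, ← e2 (hs.inter ht)]
    refine integral_congr_ae (Eventually.of_forall fun R => ?_)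
    exact ind_mul_ind s t _ _
  rw [e3, e2 hs, e2 ht, e22, ← measureReal_prod_prod] at h
  rw [Measure.add_apply, Measure.add_apply, ← ENNReal.toReal_eq_toReal_iff'
    (ENNReal.add_ne_top.2 ⟨measure_ne_top _ _, measure_ne_top _ _⟩)
    (ENNReal.add_ne_top.2 ⟨measure_ne_top _ _, measure_ne_top _ _⟩),
    ENNReal.toReal_add (measure_ne_top _ _) (measure_ne_top _ _),
    ENNReal.toReal_add (measure_ne_top _ _) (measure_ne_top _ _)]
  simp only [measureReal_def] at h
  push_cast at h
  linarith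

lemma JArr.ae_pairLaw (A : JArr J v) (ι : Fin K → J) (hι : ∑ k, v (ι k) = 1) :
    ∀ᵐ z ∂A.pairLaw ι, z ∈ Icc (0 : ℝ) 1 ×ˢ Icc (0 : ℝ) 1 := by
  have := A.isProb_total ι
  have h : ∀ᵐ z ∂(A.pairLaw ι + A.pairLaw ι), z ∈ Icc (0 : ℝ) 1 ×ˢ Icc (0 : ℝ) 1 := by
    rw [A.two_pairLaw, ae_add_measure_iff]
    refine ⟨Loop.ae_prod_unit (A.ae_total ι hι),
      (ae_map_iff (by fun_prop) (measurableSet_Icc.prod measurableSet_Icc)).2 ?_⟩
    exact (A.ae_total ι hι).mono fun u hu => ⟨hu, hu⟩
  exact (ae_add_measure_iff.1 h).1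

/-- Averages of a function of two totals at a common replica. -/
lemma JArr.two_mul_integral (A : JArr J v) (ι : Fin K → J) (hι : ∑ k, v (ι k) = 1) {h : ℝ → ℝ → ℝ}
    (hh : Continuous (Function.uncurry h)) :
    2 * ∫ R, h (blockSum ι (R 0 1)) (blockSum ι (R 0 2)) ∂A.law 3 =
      ∫ w, ((∫ u, h w u ∂A.total ι) + h w w) ∂A.total ι := by
  have := A.prob 3
  have := A.isProb_total ι
  have hm : Measurable fun R : OArr J 3 => (blockSum ι (R 0 1), blockSum ι (R 0 2)) :=
    Continuous.measurable (by fun_prop)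
  have : IsProbabilityMeasure (A.pairLaw ι) := Measure.isProbabilityMeasure_map hm.aemeasurable
  have hint := Loop.integrable_cont_two (A.ae_pairLaw ι hι) hh
  have hpair : ∫ R, h (blockSum ι (R 0 1)) (blockSum ι (R 0 2)) ∂A.law 3 =
      ∫ z, Function.uncurry h z ∂A.pairLaw ι := by
    rw [JArr.pairLaw, integral_map hm.aemeasurable hh.aestronglyMeasurable]
    rfl
  have hd : Measurable fun w : ℝ => (w, w) := by fun_prop
  have hprod := Loop.integrable_cont_two (Loop.ae_prod_unit (A.ae_total ι hι)) hh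
  have hdiag : Integrable (Function.uncurry h) ((A.total ι).map fun w => (w, w)) :=
    (integrable_map_measure hh.aestronglyMeasurable hd.aemeasurable).2
      (Loop.integrable_cont (A.ae_total ι hι) (hh.comp (by fun_prop)))
  rw [hpair, two_mul, ← integral_add_measure hint hint, A.two_pairLaw,
    integral_add_measure hprod hdiag, integral_prod _ hprod,
    integral_map hd.aemeasurable hh.aestronglyMeasurable]
  exact (integral_add
    (Loop.integrable_cont (A.ae_total ι hι)
      (Loop.continuous_integral_cont (A.ae_total ι hι) hh))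
    (Loop.integrable_cont (A.ae_total ι hι) (hh.comp (f := fun w => (w, w)) (by fun_prop)))).symm

end Vale.Agent.P166F
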